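import Mathlib

/-! # The Fejér kernel `sinc²` and its triangle Fourier representation -/

noncomputable section

open MeasureTheory Filter Set
open scoped Topology

namespace Vale.Agent.PNT

/-- The Fejér kernel. -/
def ker (y : ℝ) : ℝ := Real.sinc y ^ 2

/-- Its total mass. -/
def kerMass : ℝ := ∫ y, ker y

theorem continuous_ker : Continuous ker := Real.continuous_sinc.pow 2

theorem ker_nonneg (y : ℝ) : 0 ≤ ker y := sq_nonneg _

theorem ker_le (y : ℝ) : ker y ≤ 2 * (1 + y ^ 2)⁻¹ := by
  rw [← div_eq_mul_inv, le_div_iff₀ (by positivity)]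
  have h1 : ker y ≤ 1 := by
    rw [ker, sq_le_one_iff_abs_le_one]
    exact Real.abs_sinc_le_one y
  have h2 : ker y * y ^ 2 ≤ 1 := by
    rcases eq_or_ne y 0 with rfl | hy
    · simp
    · rw [ker, Real.sinc_of_ne_zero hy, div_pow, div_mul_cancel₀ _ (pow_ne_zero 2 hy)]
      exact Real.sin_sq_le_one y
  linarith

theorem integrable_ker : Integrable ker :=
  (integrable_inv_one_add_sq.const_mul 2).mono' continuous_ker.aestronglyMeasurable
    (Eventually.of_forall fun y => by rw [Real.norm_eq_abs, abs_of_nonneg (ker_nonneg y)]; exact ker_le y)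

theorem integrable_ker_scale {lam : ℝ} (hlam : 0 < lam) :
    Integrable fun u => ker (lam * u) :=
  integrable_ker.comp_mul_left' hlam.ne'

theorem integrable_ker_shift {lam : ℝ} (hlam : 0 < lam) (T : ℝ) :
    Integrable fun t => ker (lam * (T - t)) :=
  (integrable_ker_scale hlam).comp_sub_left T

theorem kerMass_pos : 0 < kerMass := by
  rw [kerMass, integral_pos_iff_support_of_nonneg ker_nonneg integrable_ker]
  refine continuous_ker.isOpen_support.measure_pos volume ⟨0, ?_⟩
  simp [ker]

theorem integral_ker_scale {lam : ℝ} (hlam : 0 < lam) :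
    ∫ u, ker (lam * u) = lam⁻¹ * kerMass := by
  rw [Measure.integral_comp_mul_left, abs_of_pos (inv_pos.2 hlam), smul_eq_mul, kerMass]

/-- For large `lam` most of the mass of `ker (lam ·)` lies in `[-d, d]`. -/
theorem eventually_mass_window {d η : ℝ} (hd : 0 < d) (hη : 0 < η) :
    ∀ᶠ lam in atTop, (1 - η) * ∫ u, ker (lam * u) ≤ ∫ u in (-d)..d, ker (lam * u) := by
  have h : Tendsto (fun lam : ℝ => ∫ y in (lam * -d)..(lam * d), ker y) atTop (𝓝 kerMass) :=
    intervalIntegral_tendsto_integral integrable_ker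
      (tendsto_id.atTop_mul_const_of_neg (by linarith)) (tendsto_id.atTop_mul_const hd)
  have hlt : (1 - η) * kerMass < kerMass := by nlinarith [kerMass_pos]
  filter_upwards [h.eventually_const_lt hlt, eventually_gt_atTop 0] with lam hl hlam
  rw [integral_ker_scale hlam, intervalIntegral.integral_comp_mul_left _ hlam.ne', smul_eq_mul,
    mul_left_comm]
  exact mul_le_mul_of_nonneg_left hl.le (inv_nonneg.2 hlam.le)

theorem integral_tri_cos (y : ℝ) :
    ∫ τ in (0 : ℝ)..2, (1 - τ / 2) * Real.cos (τ * y) = ker y := by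
  rcases eq_or_ne y 0 with rfl | hy
  · have e : ∀ τ ∈ Set.uIcc (0 : ℝ) 2, HasDerivAt (fun τ => τ - τ ^ 2 / 4)
        ((1 - τ / 2) * Real.cos (τ * 0)) τ := by
      intro τ _
      refine ((hasDerivAt_id τ).sub ((hasDerivAt_pow 2 τ).div_const 4)).congr_deriv ?_
      simp
      ring
    rw [intervalIntegral.integral_eq_sub_of_hasDerivAt e
      (Continuous.intervalIntegrable (by fun_prop) _ _)]
    norm_num [ker]
  · have e : ∀ τ ∈ Set.uIcc (0 : ℝ) 2, HasDerivAt
        (fun τ => (1 - τ / 2) * Real.sin (τ * y) / y - Real.cos (τ * y) / (2 * y ^ 2))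
        ((1 - τ / 2) * Real.cos (τ * y)) τ := by
      intro τ _
      have h1 : HasDerivAt (fun τ : ℝ => 1 - τ / 2) (-(1 / 2)) τ := by
        simpa using ((hasDerivAt_id τ).div_const 2).const_sub 1
      have h2 : HasDerivAt (fun τ : ℝ => τ * y) y τ := by simpa using (hasDerivAt_id τ).mul_const y
      refine (((h1.mul h2.sin).div_const y).sub (h2.cos.div_const _)).congr_deriv ?_
      field_simp
      ring
    rw [intervalIntegral.integral_eq_sub_of_hasDerivAt e
      (Continuous.intervalIntegrable (by fun_prop) _ _)]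
    rw [ker, Real.sinc_of_ne_zero hy, div_pow, Real.sin_sq_eq_half_sub]
    simp
    field_simp
    ring

/-- `2 sinc² y = ∫_{-2}^{2} (1 - |τ|/2) e^{iτy} dτ`. -/
theorem two_ker_eq (y : ℝ) :
    ((2 * ker y : ℝ) : ℂ) = ∫ τ in (-2 : ℝ)..2,
      ((1 - |τ| / 2 : ℝ) : ℂ) * Complex.exp (Complex.I * ((τ * y : ℝ) : ℂ)) := by
  set F : ℝ → ℂ := fun τ =>
    ((1 - |τ| / 2 : ℝ) : ℂ) * Complex.exp (Complex.I * ((τ * y : ℝ) : ℂ)) with hF
  have hc : Continuous F := by fun_prop
  have hc' : Continuous fun τ => F (-τ) := hc.comp continuous_neg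
  rw [← intervalIntegral.integral_add_adjacent_intervals (b := 0) (hc.intervalIntegrable _ _)
    (hc.intervalIntegrable _ _)]
  have h1 : ∫ τ in (-2 : ℝ)..0, F τ = ∫ τ in (0 : ℝ)..2, F (-τ) := by
    rw [intervalIntegral.integral_comp_neg]
    simp
  rw [h1, ← intervalIntegral.integral_add (hc'.intervalIntegrable _ _) (hc.intervalIntegrable _ _),
    ← integral_tri_cos y, ← intervalIntegral.integral_const_mul, ← intervalIntegral.integral_ofReal]
  refine intervalIntegral.integral_congr fun τ hτ => ?_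
  rw [uIcc_of_le (by norm_num)] at hτ
  simp only [hF, abs_neg, abs_of_nonneg hτ.1]
  push_cast
  rw [Complex.cos]
  ring_nf

end Vale.Agent.PNT
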