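import Vale.Agent.PNT.Tauber

/-! # The prime number theorem

From the continuity of `-ζ'/ζ(s) - 1/(s-1)` on `re s ≥ 1` (Mathlib) and `tauberian`. -/

noncomputable section

open MeasureTheory Filter Set
open scoped Topology ArithmeticFunction

namespace Vale.Agent.PNT

/-- `ψ(e^t) e^{-t}`. -/
def psiExp (t : ℝ) : ℝ := Chebyshev.psi (Real.exp t) * Real.exp (-t)

/-- The continuous extension of the Laplace transform of `psiExp - 1`. -/
def extG (z : ℂ) : ℂ :=
  (ArithmeticFunction.vonMangoldt.LFunctionResidueClassAux (1 : ZMod 1) (z + 1) - 1) / (z + 1)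

theorem psiExp_mul_exp (t : ℝ) : psiExp t * Real.exp t = Chebyshev.psi (Real.exp t) := by
  rw [psiExp, mul_assoc, ← Real.exp_add, neg_add_cancel, Real.exp_zero, mul_one]

theorem psiExp_nonneg (t : ℝ) : 0 ≤ psiExp t :=
  mul_nonneg (Chebyshev.psi_nonneg _) (Real.exp_nonneg _)

theorem psiExp_le (t : ℝ) : psiExp t ≤ Real.log 4 + 4 := by
  rw [psiExp, Real.exp_neg, ← div_eq_mul_inv, div_le_iff₀ (Real.exp_pos t)]
  exact Chebyshev.psi_le_const_mul_self (Real.exp_nonneg t)

theorem measurable_psiExp : Measurable psiExp :=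
  (Chebyshev.psi_mono.measurable.comp Real.measurable_exp).mul
    (Real.measurable_exp.comp measurable_neg)

theorem continuousOn_extG : ContinuousOn extG {z | 0 ≤ z.re} := by
  refine ContinuousOn.div (ContinuousOn.sub ?_ continuousOn_const)
    (Continuous.continuousOn (by fun_prop)) ?_
  · refine (ArithmeticFunction.vonMangoldt.continuousOn_LFunctionResidueClassAux (1 : ZMod 1)).comp
      (Continuous.continuousOn (by fun_prop)) fun z hz => ?_
    simp only [Set.mem_setOf_eq, Complex.add_re, Complex.one_re] at hz ⊢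
    linarith
  · intro z hz h
    have := congrArg Complex.re h
    simp only [Set.mem_setOf_eq] at hz
    simp only [Complex.add_re, Complex.one_re, Complex.zero_re] at this
    linarith

theorem LSeries_vonMangoldt_integral {s : ℂ} (hs : 1 < s.re) :
    LSeries (fun n => (ArithmeticFunction.vonMangoldt n : ℂ)) s
      = s * ∫ x in Ioi (1 : ℝ), (Chebyshev.psi x : ℂ) * (x : ℂ) ^ (-(s + 1)) := by
  rw [LSeries_eq_mul_integral_of_nonneg (fun n => ArithmeticFunction.vonMangoldt n) zero_le_one hs
    ?_ (fun n => ArithmeticFunction.vonMangoldt_nonneg)]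
  · congr 1
    refine integral_congr_ae (Eventually.of_forall fun x => ?_)
    simp only [Chebyshev.psi, Complex.ofReal_sum]
    rfl
  · refine Asymptotics.IsBigO.of_bound (Real.log 4 + 4) (Eventually.of_forall fun n => ?_)
    have e : ∑ k ∈ Finset.Icc 1 n, ArithmeticFunction.vonMangoldt k = Chebyshev.psi n := by
      rw [Chebyshev.psi, Nat.floor_natCast]
      rfl
    rw [e, Real.rpow_one, Real.norm_of_nonneg (Chebyshev.psi_nonneg _),
      Real.norm_of_nonneg n.cast_nonneg]
    exact Chebyshev.psi_le_const_mul_self n.cast_nonneg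

theorem laplace_psiExp {z : ℂ} (hz : 0 < z.re) :
    ∫ t in Ioi (0 : ℝ), ((psiExp t - 1 : ℝ) : ℂ) * Complex.exp (-z * (t : ℂ)) = extG z := by
  have hs : 1 < (z + 1).re := by simp [hz]
  have hz0 : z ≠ 0 := fun h => by simp [h] at hz
  have hz1 : z + 1 ≠ 0 := fun h => by rw [h] at hs; norm_num at hs
  have hexp : IntegrableOn (fun t : ℝ => Complex.exp (-z * (t : ℂ))) (Ioi 0) :=
    integrableOn_exp_mul_complex_Ioi (by simp [hz]) 0
  have hpsi : IntegrableOn (fun t : ℝ => (psiExp t : ℂ) * Complex.exp (-z * (t : ℂ))) (Ioi 0) :=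
    Integrable.bdd_mul hexp (measurable_psiExp.complex_ofReal.aestronglyMeasurable)
      (Eventually.of_forall fun t => by
        rw [Complex.norm_real, Real.norm_of_nonneg (psiExp_nonneg t)]; exact psiExp_le t)
  have h1 : ∫ t in Ioi (0 : ℝ), Complex.exp (-z * (t : ℂ)) = 1 / z := by
    rw [integral_exp_mul_complex_Ioi (by simp [hz]) 0]
    simp
  have hcv : ∫ x in Ioi (1 : ℝ), (Chebyshev.psi x : ℂ) * (x : ℂ) ^ (-(z + 1 + 1))
      = ∫ t in Ioi (0 : ℝ), (psiExp t : ℂ) * Complex.exp (-z * (t : ℂ)) := by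
    rw [← Real.exp_zero, ← integral_comp_exp_Ioi]
    refine integral_congr_ae (Eventually.of_forall fun t => ?_)
    have hne : ((Real.exp t : ℝ) : ℂ) ≠ 0 := Complex.ofReal_ne_zero.2 (Real.exp_ne_zero t)
    simp only [Complex.real_smul, psiExp, Complex.ofReal_mul]
    rw [Complex.cpow_def_of_ne_zero hne, ← Complex.ofReal_log (Real.exp_nonneg t), Real.log_exp,
      Complex.ofReal_exp, Complex.ofReal_exp, mul_left_comm, mul_assoc, ← Complex.exp_add,
      ← Complex.exp_add]
    push_cast
    ring_nf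
  have hres : ∀ n : ℕ, ArithmeticFunction.vonMangoldt.residueClass (1 : ZMod 1) n
      = ArithmeticFunction.vonMangoldt n := fun n =>
    Set.indicator_of_mem (by exact Subsingleton.elim _ _) _
  have haux := ArithmeticFunction.vonMangoldt.eqOn_LFunctionResidueClassAux
    (isUnit_one : IsUnit (1 : ZMod 1)) hs
  simp only [hres, Nat.totient_one, Nat.cast_one, inv_one, add_sub_cancel_right] at haux
  rw [LSeries_vonMangoldt_integral hs, hcv] at haux
  simp only [Complex.ofReal_sub, Complex.ofReal_one, sub_mul, one_mul]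
  rw [integral_sub hpsi hexp, h1, extG, haux]
  field_simp
  ring

theorem tendsto_psiExp : Tendsto psiExp atTop (𝓝 1) :=
  tauberian measurable_psiExp psiExp_nonneg psiExp_le
    (fun s t hst => by
      rw [psiExp_mul_exp, psiExp_mul_exp]
      exact Chebyshev.psi_mono (Real.exp_le_exp.2 hst))
    continuousOn_extG (fun z hz => laplace_psiExp hz)

theorem tendsto_psi_div : Tendsto (fun x : ℝ => Chebyshev.psi x / x) atTop (𝓝 1) := by
  refine (tendsto_psiExp.comp Real.tendsto_log_atTop).congr' ?_
  filter_upwards [eventually_gt_atTop 0] with x hx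
  simp only [Function.comp_apply, psiExp, Real.exp_log hx, Real.exp_neg, div_eq_mul_inv]

theorem tendsto_theta_div : Tendsto (fun x : ℝ => Chebyshev.theta x / x) atTop (𝓝 1) := by
  obtain ⟨C, hC⟩ := Chebyshev.psi_sub_theta_le_mul_sqrt
  have h : Tendsto (fun x : ℝ => Chebyshev.psi x / x - C * (Real.sqrt x)⁻¹) atTop (𝓝 (1 - C * 0)) :=
    tendsto_psi_div.sub ((tendsto_inv_atTop_zero.comp Real.tendsto_sqrt_atTop).const_mul C)
  rw [mul_zero, sub_zero] at h
  refine tendsto_of_tendsto_of_tendsto_of_le_of_le' h tendsto_psi_div ?_ ?_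
  · filter_upwards [eventually_gt_atTop 0] with x hx
    have hs : Real.sqrt x * Real.sqrt x = x := Real.mul_self_sqrt hx.le
    have hs0 : 0 < Real.sqrt x := Real.sqrt_pos.2 hx
    rw [le_div_iff₀ hx, sub_mul, div_mul_cancel₀ _ hx.ne']
    have e : C * (Real.sqrt x)⁻¹ * x = C * Real.sqrt x := by
      rw [mul_assoc, inv_mul_eq_div, Real.div_sqrt]
    linarith [hC x]
  · filter_upwards [eventually_gt_atTop 0] with x hx
    exact div_le_div_of_nonneg_right (Chebyshev.theta_le_psi x) hx.le

/-- The prime number theorem: `π(x) log x / x → 1`. -/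
theorem tendsto_primeCounting_mul_log_div :
    Tendsto (fun x : ℝ => (Nat.primeCounting ⌊x⌋₊ : ℝ) * Real.log x / x) atTop (𝓝 1) := by
  obtain ⟨C, hC⟩ := Chebyshev.primeCounting_sub_theta_div_log_isBigO.bound
  have h0 : Tendsto (fun x : ℝ => ((Nat.primeCounting ⌊x⌋₊ : ℝ)
      - Chebyshev.theta x / Real.log x) * Real.log x / x) atTop (𝓝 0) := by
    refine squeeze_zero_norm' ?_
      (by simpa using Real.tendsto_log_atTop.inv_tendsto_atTop.const_mul C)
    filter_upwards [hC, eventually_gt_atTop 1] with x hx h1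
    have hl : 0 < Real.log x := Real.log_pos h1
    have hx0 : 0 < x := by linarith
    rw [Real.norm_of_nonneg (by positivity : (0 : ℝ) ≤ x / Real.log x ^ 2)] at hx
    rw [norm_div, norm_mul, Real.norm_of_nonneg hl.le, Real.norm_of_nonneg hx0.le,
      div_le_iff₀ hx0]
    refine (mul_le_mul_of_nonneg_right hx hl.le).trans (le_of_eq ?_)
    field_simp
  have h := h0.add tendsto_theta_div
  rw [zero_add] at h
  refine h.congr' ?_
  filter_upwards [eventually_gt_atTop 1] with x h1
  have hl : Real.log x ≠ 0 := (Real.log_pos h1).ne'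
  field_simp
  ring

end Vale.Agent.PNT
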