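import Vale.Agent.PNT.Kernel

/-! # A Fejér-kernel Tauberian theorem (Wiener–Ikehara type)

`a ≥ 0` bounded with `e^t a(t)` nondecreasing; if `∫_0^∞ (a(t) - 1) e^{-zt} dt` agrees on `re z > 0`
with a function continuous on `re z ≥ 0`, then `a(t) → 1`. -/

noncomputable section

open MeasureTheory Filter Set
open scoped Topology

namespace Vale.Agent.PNT

theorem integrableOn_bdd_mul {g k : ℝ → ℝ} {C : ℝ} (hg : Measurable g) (hC : ∀ t, |g t| ≤ C)
    (hk : Integrable k) (s : Set ℝ) : IntegrableOn (fun t => g t * k t) s :=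
  (hk.bdd_mul hg.aestronglyMeasurable
    (Eventually.of_forall fun t => by rw [Real.norm_eq_abs]; exact hC t)).integrableOn

/-- The Fubini identity behind the theorem. -/
theorem smoothed_eq {g : ℝ → ℝ} {G : ℂ → ℂ} {C : ℝ} (hg : Measurable g) (hC : ∀ t, |g t| ≤ C)
    (hlap : ∀ z : ℂ, 0 < z.re →
      ∫ t in Ioi (0 : ℝ), (g t : ℂ) * Complex.exp (-z * (t : ℂ)) = G z)
    {lam σ : ℝ} (hσ : 0 < σ) (T : ℝ) :
    ((∫ t in Ioi (0 : ℝ), g t * Real.exp (-(σ * t)) * (2 * ker (lam * (T - t))) : ℝ) : ℂ)
      = ∫ τ in Ioc (-2 : ℝ) 2, ((1 - |τ| / 2 : ℝ) : ℂ) *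
          Complex.exp (Complex.I * ((lam * τ * T : ℝ) : ℂ)) *
          G ((σ : ℂ) + Complex.I * ((lam * τ : ℝ) : ℂ)) := by
  set F : ℝ → ℝ → ℂ := fun τ t => ((g t * Real.exp (-(σ * t)) : ℝ) : ℂ) *
    (((1 - |τ| / 2 : ℝ) : ℂ) * Complex.exp (Complex.I * ((τ * (lam * (T - t)) : ℝ) : ℂ))) with hF
  have hR : ∀ τ : ℝ, ((1 - |τ| / 2 : ℝ) : ℂ) * Complex.exp (Complex.I * ((lam * τ * T : ℝ) : ℂ)) *
      G ((σ : ℂ) + Complex.I * ((lam * τ : ℝ) : ℂ)) = ∫ t in Ioi (0 : ℝ), F τ t := by
    intro τ
    rw [← hlap _ (by simp [hσ]), ← integral_const_mul]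
    refine integral_congr_ae (Eventually.of_forall fun t => ?_)
    have e : Complex.exp (Complex.I * ((lam * τ * T : ℝ) : ℂ)) *
        Complex.exp (-((σ : ℂ) + Complex.I * ((lam * τ : ℝ) : ℂ)) * (t : ℂ))
        = ((Real.exp (-(σ * t)) : ℝ) : ℂ) *
          Complex.exp (Complex.I * ((τ * (lam * (T - t)) : ℝ) : ℂ)) := by
      rw [Complex.ofReal_exp, ← Complex.exp_add, ← Complex.exp_add]
      push_cast
      ring_nf
    simp only [hF, Complex.ofReal_mul] at e ⊢
    linear_combination (((1 - |τ| / 2 : ℝ) : ℂ) * (g t : ℂ)) * e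
  have hint : Integrable (Function.uncurry F)
      ((volume.restrict (Ioc (-2 : ℝ) 2)).prod (volume.restrict (Ioi (0 : ℝ)))) := by
    refine Integrable.mono' (g := fun p : ℝ × ℝ => (2 : ℝ) * (C * Real.exp (-σ * p.2)))
      ((integrable_const (2 : ℝ)).mul_prod ((exp_neg_integrableOn_Ioi 0 hσ).const_mul C))
      (by unfold Function.uncurry; simp only [hF]; fun_prop) ?_
    have hτ : ∀ᵐ p : ℝ × ℝ ∂((volume.restrict (Ioc (-2 : ℝ) 2)).prod
        (volume.restrict (Ioi (0 : ℝ)))), p.1 ∈ Ioc (-2 : ℝ) 2 :=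
      Measure.quasiMeasurePreserving_fst.ae (ae_restrict_mem measurableSet_Ioc)
    filter_upwards [hτ] with p hp
    simp only [Function.uncurry, hF, norm_mul, Complex.norm_real, Complex.norm_exp, Real.norm_eq_abs]
    simp only [Complex.mul_re, Complex.I_re, Complex.I_im, Complex.ofReal_im, zero_mul, one_mul,
      sub_zero, mul_zero, Real.exp_zero, mul_one, abs_mul, Real.abs_exp, neg_mul]
    have h1 : |1 - |p.1| / 2| ≤ 2 := by
      have := abs_nonneg p.1
      have : |p.1| ≤ 2 := abs_le.2 ⟨hp.1.le, hp.2⟩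
      rw [abs_le]; constructor <;> linarith
    have h0 : 0 ≤ C := (abs_nonneg _).trans (hC 0)
    rw [mul_comm]
    exact mul_le_mul h1 (mul_le_mul_of_nonneg_right (hC _) (Real.exp_nonneg _)) (by positivity)
      (by norm_num)
  rw [setIntegral_congr_fun measurableSet_Ioc (fun τ _ => hR τ), integral_integral_swap hint,
    ← integral_complex_ofReal]
  refine integral_congr_ae (Eventually.of_forall fun t => ?_)
  simp only [hF, integral_const_mul]
  rw [← intervalIntegral.integral_of_le (by norm_num : (-2 : ℝ) ≤ 2), ← two_ker_eq,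
    ← Complex.ofReal_mul]

/-- Letting `σ → 0`. -/
theorem smoothed_eq_zero {g : ℝ → ℝ} {G : ℂ → ℂ} {C : ℝ} (hg : Measurable g) (hC : ∀ t, |g t| ≤ C)
    (hG : ContinuousOn G {z | 0 ≤ z.re})
    (hlap : ∀ z : ℂ, 0 < z.re →
      ∫ t in Ioi (0 : ℝ), (g t : ℂ) * Complex.exp (-z * (t : ℂ)) = G z)
    {lam : ℝ} (hlam : 0 < lam) (T : ℝ) :
    ((∫ t in Ioi (0 : ℝ), g t * (2 * ker (lam * (T - t))) : ℝ) : ℂ)
      = ∫ τ in Ioc (-2 : ℝ) 2, ((1 - |τ| / 2 : ℝ) : ℂ) *
          Complex.exp (Complex.I * ((lam * τ * T : ℝ) : ℂ)) *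
          G (Complex.I * ((lam * τ : ℝ) : ℂ)) := by
  set σ : ℕ → ℝ := fun n => 1 / ((n : ℝ) + 1) with hσ
  have hσ0 : ∀ n, 0 < σ n := fun n => Nat.one_div_pos_of_nat
  have hσ1 : ∀ n, σ n ≤ 1 := fun n => by
    simp only [hσ]; rw [div_le_one (by positivity)]; linarith [n.cast_nonneg (α := ℝ)]
  have hσlim : Tendsto σ atTop (𝓝 0) := tendsto_one_div_add_atTop_nhds_zero_nat
  have h0 : 0 ≤ C := (abs_nonneg _).trans (hC 0)
  have hk : Integrable fun t => 2 * ker (lam * (T - t)) := (integrable_ker_shift hlam T).const_mul 2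
  have hL : Tendsto (fun n => ∫ t in Ioi (0 : ℝ),
      g t * Real.exp (-(σ n * t)) * (2 * ker (lam * (T - t)))) atTop
      (𝓝 (∫ t in Ioi (0 : ℝ), g t * (2 * ker (lam * (T - t))))) := by
    have hkc : Continuous ker := continuous_ker
    refine tendsto_integral_of_dominated_convergence (fun t => C * (2 * ker (lam * (T - t))))
      (fun n => by fun_prop) (hk.const_mul C).integrableOn (fun n => ?_) ?_
    · filter_upwards [ae_restrict_mem measurableSet_Ioi] with t ht
      have := ker_nonneg (lam * (T - t))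
      rw [norm_mul, norm_mul, Real.norm_eq_abs, Real.norm_eq_abs,
        Real.norm_of_nonneg (by positivity : (0 : ℝ) ≤ 2 * ker (lam * (T - t))), Real.abs_exp]
      refine mul_le_mul_of_nonneg_right ?_ (by positivity)
      refine (mul_le_of_le_one_right (abs_nonneg _) ?_).trans (hC t)
      rw [Real.exp_le_one_iff]
      have := mul_pos (hσ0 n) (show (0 : ℝ) < t from ht)
      linarith
    · refine Eventually.of_forall fun t => ?_
      have : Tendsto (fun n => g t * Real.exp (-(σ n * t))) atTop (𝓝 (g t * Real.exp (-(0 * t)))) :=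
        (((hσlim.mul_const t).neg).rexp).const_mul _
      simpa using this.mul_const (2 * ker (lam * (T - t)))
  set P : ℝ × ℝ → ℂ := fun p => ((1 - |p.2| / 2 : ℝ) : ℂ) *
    Complex.exp (Complex.I * ((lam * p.2 * T : ℝ) : ℂ)) *
    G ((p.1 : ℂ) + Complex.I * ((lam * p.2 : ℝ) : ℂ)) with hP
  have hPc : ContinuousOn P (Icc (0 : ℝ) 1 ×ˢ Icc (-2 : ℝ) 2) := by
    refine ContinuousOn.mul (Continuous.continuousOn (by fun_prop))
      (hG.comp (Continuous.continuousOn (by fun_prop)) ?_)
    rintro ⟨a, b⟩ ⟨ha, -⟩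
    simpa using ha.1
  obtain ⟨M, hM⟩ := (isCompact_Icc.prod isCompact_Icc).exists_bound_of_continuousOn hPc
  have hRlim : Tendsto (fun n => ∫ τ in Ioc (-2 : ℝ) 2, P (σ n, τ)) atTop
      (𝓝 (∫ τ in Ioc (-2 : ℝ) 2, P (0, τ))) := by
    refine tendsto_integral_of_dominated_convergence (fun _ => M) (fun n => ?_)
      (integrable_const M) (fun n => ?_) ?_
    · exact ((hPc.comp (Continuous.continuousOn (by fun_prop))
        (fun τ hτ => ⟨⟨(hσ0 n).le, hσ1 n⟩, Ioc_subset_Icc_self hτ⟩)).aestronglyMeasurable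
          measurableSet_Ioc)
    · filter_upwards [ae_restrict_mem measurableSet_Ioc] with τ hτ
      exact hM _ ⟨⟨(hσ0 n).le, hσ1 n⟩, Ioc_subset_Icc_self hτ⟩
    · filter_upwards [ae_restrict_mem measurableSet_Ioc] with τ hτ
      refine (hPc (0, τ) ⟨⟨le_rfl, zero_le_one⟩, Ioc_subset_Icc_self hτ⟩).tendsto.comp ?_
      exact tendsto_nhdsWithin_iff.2 ⟨hσlim.prodMk_nhds tendsto_const_nhds,
        Eventually.of_forall fun n => ⟨⟨(hσ0 n).le, hσ1 n⟩, Ioc_subset_Icc_self hτ⟩⟩
  have hlim := (Complex.continuous_ofReal.tendsto _).comp hL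
  have heq : (fun n => ∫ τ in Ioc (-2 : ℝ) 2, P (σ n, τ)) = fun n =>
      ((∫ t in Ioi (0 : ℝ), g t * Real.exp (-(σ n * t)) * (2 * ker (lam * (T - t))) : ℝ) : ℂ) :=
    funext fun n => (smoothed_eq hg hC hlap (hσ0 n) T).symm
  rw [heq] at hRlim
  simpa [hP] using tendsto_nhds_unique hlim hRlim

theorem tendsto_smoothed {g : ℝ → ℝ} {G : ℂ → ℂ} {C : ℝ} (hg : Measurable g)
    (hC : ∀ t, |g t| ≤ C) (hG : ContinuousOn G {z | 0 ≤ z.re})
    (hlap : ∀ z : ℂ, 0 < z.re →
      ∫ t in Ioi (0 : ℝ), (g t : ℂ) * Complex.exp (-z * (t : ℂ)) = G z)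
    {lam : ℝ} (hlam : 0 < lam) :
    Tendsto (fun T => ∫ t in Ioi (0 : ℝ), g t * ker (lam * (T - t))) atTop (𝓝 0) := by
  set f : ℝ → ℂ := (Ioc (-2 : ℝ) 2).indicator fun τ =>
    ((1 - |τ| / 2 : ℝ) : ℂ) * G (Complex.I * ((lam * τ : ℝ) : ℂ)) with hf
  have hw : Tendsto (fun T : ℝ => T * (-(lam / (2 * Real.pi)))) atTop (cocompact ℝ) :=
    (tendsto_id.atTop_mul_const_of_neg (by have := Real.pi_pos; simp; positivity)).mono_right
      atBot_le_cocompact
  have h := (Real.tendsto_integral_exp_smul_cocompact f).comp hw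
  have e : ∀ T : ℝ, ((∫ t in Ioi (0 : ℝ), g t * (2 * ker (lam * (T - t))) : ℝ) : ℂ)
      = ∫ v : ℝ, Real.fourierChar (-(v * (T * (-(lam / (2 * Real.pi)))))) • f v := by
    intro T
    rw [smoothed_eq_zero hg hC hG hlap hlam T, ← integral_indicator measurableSet_Ioc]
    refine integral_congr_ae (Eventually.of_forall fun v => ?_)
    by_cases hv : v ∈ Ioc (-2 : ℝ) 2
    · simp only [hf, indicator_of_mem hv, Circle.smul_def, Real.fourierChar_apply, smul_eq_mul]
      have : 2 * Real.pi * -(v * (T * -(lam / (2 * Real.pi)))) = lam * v * T := by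
        field_simp
      rw [this, mul_comm Complex.I]
      ring
    · simp [hf, indicator_of_notMem hv]
  have h2 : Tendsto (fun T => ∫ t in Ioi (0 : ℝ), g t * (2 * ker (lam * (T - t)))) atTop (𝓝 0) := by
    have h' := (Complex.continuous_re.tendsto (0 : ℂ)).comp h
    rw [Complex.zero_re] at h'
    refine h'.congr fun T => ?_
    simp only [Function.comp_apply, ← e T, Complex.ofReal_re]
  have h3 := h2.const_mul (1 / 2)
  rw [mul_zero] at h3
  refine h3.congr fun T => ?_
  rw [← integral_const_mul]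
  exact integral_congr_ae (Eventually.of_forall fun t => by ring)

theorem tendsto_ker_mass {lam : ℝ} (hlam : 0 < lam) :
    Tendsto (fun T => ∫ t in Ioi (0 : ℝ), ker (lam * (T - t))) atTop
      (𝓝 (∫ u, ker (lam * u))) := by
  have e : ∀ T : ℝ, ∫ t in Ioi (0 : ℝ), ker (lam * (T - t))
      = ∫ u, (Iio T).indicator (fun u => ker (lam * u)) u := by
    intro T
    rw [← integral_indicator measurableSet_Ioi,
      ← integral_sub_left_eq_self (fun t => (Ioi (0 : ℝ)).indicator (fun t => ker (lam * (T - t))) t)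
        volume T]
    refine integral_congr_ae (Eventually.of_forall fun u => ?_)
    simp [indicator]
  simp only [e]
  refine tendsto_integral_filter_of_dominated_convergence (fun u => ker (lam * u))
    (Eventually.of_forall fun T => ((integrable_ker_scale hlam).indicator
      measurableSet_Iio).aestronglyMeasurable)
    (Eventually.of_forall fun T => Eventually.of_forall fun u => ?_) (integrable_ker_scale hlam)
    (Eventually.of_forall fun u => ?_)
  · rw [Real.norm_of_nonneg (indicator_nonneg (fun u _ => ker_nonneg _) u)]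
    exact indicator_le_self' (fun u _ => ker_nonneg _) u
  · refine tendsto_const_nhds.congr' ?_
    filter_upwards [eventually_gt_atTop u] with T hT
    rw [indicator_of_mem (show u ∈ Iio T from hT)]

theorem tauberian {a : ℝ → ℝ} {G : ℂ → ℂ} {C : ℝ} (ha : Measurable a) (h0 : ∀ t, 0 ≤ a t)
    (hC : ∀ t, a t ≤ C) (hmono : ∀ s t, s ≤ t → a s * Real.exp s ≤ a t * Real.exp t)
    (hG : ContinuousOn G {z | 0 ≤ z.re})
    (hlap : ∀ z : ℂ, 0 < z.re →
      ∫ t in Ioi (0 : ℝ), ((a t - 1 : ℝ) : ℂ) * Complex.exp (-z * (t : ℂ)) = G z) :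
    Tendsto a atTop (𝓝 1) := by
  have hC0 : 0 ≤ C := (h0 0).trans (hC 0)
  have habs : ∀ t, |a t| ≤ C := fun t => by rw [abs_of_nonneg (h0 t)]; exact hC t
  have hgb : ∀ t, |a t - 1| ≤ C + 1 := fun t => by
    rw [abs_le]; constructor <;> linarith [h0 t, hC t]
  set Q : ℝ → ℝ → ℝ := fun lam T => ∫ t in Ioi (0 : ℝ), a t * ker (lam * (T - t)) with hQ
  have hQlim : ∀ lam, 0 < lam → Tendsto (Q lam) atTop (𝓝 (∫ u, ker (lam * u))) := by
    intro lam hlam
    have := (tendsto_smoothed (ha.sub_const 1) hgb hG hlap hlam).add (tendsto_ker_mass hlam)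
    rw [zero_add] at this
    refine this.congr fun T => ?_
    rw [← integral_add (integrableOn_bdd_mul (ha.sub_const 1) hgb (integrable_ker_shift hlam T) _)
      (integrable_ker_shift hlam T).integrableOn]
    exact integral_congr_ae (Eventually.of_forall fun t => by ring)
  -- the two one-sided bounds
  have key : ∀ η : ℝ, 0 < η → η < 1 → ∀ᶠ T in atTop,
      a T ≤ Real.exp (2 * η) * (1 + η) / (1 - η) ∧
        Real.exp (-(2 * η)) * (1 - η - C * η) ≤ a T := by
    intro η hη hη1
    obtain ⟨lam, hwin, hlam⟩ :=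
      ((eventually_mass_window hη hη).and (eventually_gt_atTop 0)).exists
    set I : ℝ := ∫ u, ker (lam * u) with hI
    set A : ℝ := ∫ u in (-η)..η, ker (lam * u) with hA
    have hI0 : 0 < I := by
      rw [hI, integral_ker_scale hlam]; exact mul_pos (inv_pos.2 hlam) kerMass_pos
    have hev1 : ∀ᶠ T in atTop, Q lam (T + η) ≤ (1 + η) * I :=
      ((hQlim lam hlam).comp (tendsto_atTop_add_const_right _ η tendsto_id)).eventually_le_const
        (by nlinarith)
    have hev2 : ∀ᶠ T in atTop, (1 - η) * I ≤ Q lam (T - η) :=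
      ((hQlim lam hlam).comp (tendsto_atTop_add_const_right _ (-η) tendsto_id)).eventually_const_le
        (by nlinarith)
    filter_upwards [hev1, hev2, eventually_ge_atTop 0] with T h1 h2 hT
    constructor
    · -- upper bound
      have hsub : a T * Real.exp (-(2 * η)) * A ≤ Q lam (T + η) := by
        have hA' : A = ∫ t in Ioc T (T + 2 * η), ker (lam * (T + η - t)) := by
          rw [← intervalIntegral.integral_of_le (by linarith),
            intervalIntegral.integral_comp_sub_left (fun u => ker (lam * u))]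
          rw [hA]; congr 1 <;> ring
        rw [hA', ← integral_const_mul]
        refine le_trans (setIntegral_mono_on ((integrable_ker_shift hlam _).const_mul _).integrableOn
          (integrableOn_bdd_mul ha habs (integrable_ker_shift hlam _) _) measurableSet_Ioc
          fun t ht => mul_le_mul_of_nonneg_right ?_ (ker_nonneg _)) ?_
        · have h3 := hmono T t ht.1.le
          have h4 : a t * Real.exp t ≤ a t * Real.exp (T + 2 * η) :=
            mul_le_mul_of_nonneg_left (Real.exp_le_exp.2 ht.2) (h0 t)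
          rw [Real.exp_neg, ← div_eq_mul_inv, div_le_iff₀ (Real.exp_pos _)]
          refine le_of_mul_le_mul_right (le_trans (h3.trans h4) (le_of_eq ?_)) (Real.exp_pos T)
          rw [Real.exp_add]; ring
        · exact setIntegral_mono_set (integrableOn_bdd_mul ha habs (integrable_ker_shift hlam _) _)
            (Eventually.of_forall fun t => mul_nonneg (h0 t) (ker_nonneg _))
            (LE.le.eventuallyLE fun t ht => lt_of_le_of_lt hT ht.1)
      rw [le_div_iff₀ (by linarith)]
      have h5 : a T * Real.exp (-(2 * η)) * ((1 - η) * I) ≤ (1 + η) * I :=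
        le_trans (mul_le_mul_of_nonneg_left hwin (mul_nonneg (h0 T) (Real.exp_nonneg _)))
          (hsub.trans h1)
      have h6 : a T * Real.exp (-(2 * η)) * (1 - η) ≤ 1 + η :=
        le_of_mul_le_mul_right (by linarith) hI0
      have h7 := mul_le_mul_of_nonneg_left h6 (Real.exp_nonneg (2 * η))
      have e : Real.exp (2 * η) * Real.exp (-(2 * η)) = 1 := by rw [← Real.exp_add]; simp
      calc a T * (1 - η) = Real.exp (2 * η) * (a T * Real.exp (-(2 * η)) * (1 - η)) := by
            linear_combination (-(a T * (1 - η))) * e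
        _ ≤ _ := h7
    · -- lower bound
      set W : ℝ → ℝ := fun t => (Icc (-η) η).indicator (fun u => ker (lam * u)) (T - η - t) with hW
      have hWint : Integrable W :=
        ((integrable_ker_scale hlam).indicator measurableSet_Icc).comp_sub_left (T - η)
      have hpt : ∀ t, a t * ker (lam * (T - η - t))
          ≤ a T * Real.exp (2 * η) * ker (lam * (T - η - t))
            + C * (ker (lam * (T - η - t)) - W t) := by
        intro t
        have hk := ker_nonneg (lam * (T - η - t))
        by_cases hu : T - η - t ∈ Icc (-η) η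
        · simp only [hW, indicator_of_mem hu, sub_self, mul_zero, add_zero]
          refine mul_le_mul_of_nonneg_right ?_ hk
          refine le_of_mul_le_mul_right ((hmono t T (by linarith [hu.1])).trans ?_) (Real.exp_pos t)
          rw [mul_assoc, ← Real.exp_add]
          exact mul_le_mul_of_nonneg_left (Real.exp_le_exp.2 (by linarith [hu.2])) (h0 T)
        · simp only [hW, indicator_of_notMem hu, sub_zero]
          have := mul_le_mul_of_nonneg_right (hC t) hk
          have : 0 ≤ a T * Real.exp (2 * η) * ker (lam * (T - η - t)) := by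
            have := h0 T; positivity
          linarith
      have hrhs : Integrable fun t => a T * Real.exp (2 * η) * ker (lam * (T - η - t))
          + C * (ker (lam * (T - η - t)) - W t) :=
        ((integrable_ker_shift hlam _).const_mul _).add
          (((integrable_ker_shift hlam _).sub hWint).const_mul _)
      have hle : Q lam (T - η) ≤ a T * Real.exp (2 * η) * I + C * (I - A) := by
        refine le_trans (setIntegral_mono_on
          (integrableOn_bdd_mul ha habs (integrable_ker_shift hlam _) _) hrhs.integrableOn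
          measurableSet_Ioi fun t _ => hpt t) ?_
        refine le_trans (setIntegral_le_integral hrhs (Eventually.of_forall fun t => ?_))
          (le_of_eq ?_)
        · exact le_trans (mul_nonneg (h0 t) (ker_nonneg _)) (hpt t)
        · have i1 : Integrable fun t => a T * Real.exp (2 * η) * ker (lam * (T - η - t)) :=
            (integrable_ker_shift hlam _).const_mul _
          have i2 : Integrable fun t => C * (ker (lam * (T - η - t)) - W t) :=
            ((integrable_ker_shift hlam _).sub hWint).const_mul _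
          rw [integral_add i1 i2,
            integral_const_mul, integral_const_mul,
            integral_sub (integrable_ker_shift hlam _) hWint,
            integral_sub_left_eq_self (fun u => ker (lam * u)) volume (T - η)]
          simp only [hW]
          rw [integral_sub_left_eq_self
              (fun u => (Icc (-η) η).indicator (fun u => ker (lam * u)) u) volume (T - η),
            integral_indicator measurableSet_Icc, integral_Icc_eq_integral_Ioc,
            ← intervalIntegral.integral_of_le (by linarith)]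
      have h3 : C * (I - A) ≤ C * (η * I) := mul_le_mul_of_nonneg_left (by linarith) hC0
      have h6 : (1 - η - C * η) ≤ a T * Real.exp (2 * η) :=
        le_of_mul_le_mul_right (by linarith [h2.trans hle]) hI0
      have e : Real.exp (2 * η) * Real.exp (-(2 * η)) = 1 := by rw [← Real.exp_add]; simp
      calc Real.exp (-(2 * η)) * (1 - η - C * η)
          ≤ Real.exp (-(2 * η)) * (a T * Real.exp (2 * η)) :=
            mul_le_mul_of_nonneg_left h6 (Real.exp_nonneg _)
        _ = a T := by linear_combination (a T) * e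
  rw [Metric.tendsto_atTop']
  intro ε hε
  have c1 : Tendsto (fun η : ℝ => Real.exp (2 * η) * (1 + η) / (1 - η)) (𝓝[>] 0) (𝓝 1) := by
    have : ContinuousAt (fun η : ℝ => Real.exp (2 * η) * (1 + η) / (1 - η)) 0 :=
      ContinuousAt.div (by fun_prop) (by fun_prop) (by norm_num)
    simpa using this.tendsto.mono_left nhdsWithin_le_nhds
  have c2 : Tendsto (fun η : ℝ => Real.exp (-(2 * η)) * (1 - η - C * η)) (𝓝[>] 0) (𝓝 1) := by
    have : Continuous fun η : ℝ => Real.exp (-(2 * η)) * (1 - η - C * η) := by fun_prop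
    simpa using (this.tendsto 0).mono_left nhdsWithin_le_nhds
  obtain ⟨η, hη0, hη1, hu, hl⟩ := (eventually_mem_nhdsWithin.and
    ((eventually_nhdsWithin_of_eventually_nhds (eventually_lt_nhds zero_lt_one)).and
      ((c1.eventually_lt_const (show (1 : ℝ) < 1 + ε by linarith)).and
        (c2.eventually_const_lt (show 1 - ε < (1 : ℝ) by linarith))))).exists
  obtain ⟨N, hN⟩ := eventually_atTop.1 (key η hη0 hη1)
  refine ⟨N, fun T hT => ?_⟩
  obtain ⟨h1, h2⟩ := hN T hT.le
  rw [Real.dist_eq, abs_lt]
  constructor <;> linarith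

end Vale.Agent.PNT
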